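import Vale.Agent.P200.Box.ClementsLindstrom
import Vale.Agent.P200.Assemble

/-!
From a monomial ideal containing powers of the first variables to the lex-plus-powers space.
-/

namespace Vale.Agent.P200.Box

open Finset MvPolynomial

variable {n c : ℕ}

/-- Sides of the box: `a` on the first `c` coordinates, `N` on the others. -/
def sides (a : Fin c → ℕ) (N : ℕ) (i : Fin n) : ℕ := if h : (i : ℕ) < c then a ⟨i, h⟩ else N

lemma sides_monotone {a : Fin c → ℕ} (ha : Monotone a) {N : ℕ} (hN : ∀ i, a i ≤ N) :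
    Monotone (sides (n := n) a N) := by
  intro i j hij
  have : (i : ℕ) ≤ j := hij
  unfold sides
  split_ifs with h1 h2 h2
  · exact ha hij
  · exact hN _
  · omega
  · exact le_rfl

/-- Reduced exponents: below `a` on the first `c` coordinates. -/
def Reduced (hcn : c ≤ n) (a : Fin c → ℕ) (x : Fin n → ℕ) : Prop :=
  ∀ i : Fin c, x (Fin.castLE hcn i) < a i

lemma mem_box_sides (hcn : c ≤ n) {a : Fin c → ℕ} {N d : ℕ} (hd : d < N) {x : Fin n → ℕ} :
    x ∈ box (sides a N) d ↔ ∑ i, x i = d ∧ Reduced hcn a x := by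
  rw [mem_box, and_comm, and_congr_right_iff]
  intro hs
  constructor
  · intro h i
    have := h (Fin.castLE hcn i)
    simpa [sides, i.isLt] using this
  · intro h i
    unfold sides
    split_ifs with hi
    · exact h ⟨i, hi⟩
    · exact lt_of_le_of_lt (hs ▸ single_le_sum (fun j _ => Nat.zero_le _) (mem_univ i)) hd

/-- The lex-plus-powers sets of the Hilbert function of a monomial ideal containing powers. -/
theorem exists_lpp (K : Type*) [Field K] (hcn : c ≤ n) {a : Fin c → ℕ} (ha : Monotone a)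
    (s : Set (Fin n →₀ ℕ)) (hs : ∀ i, Finsupp.single (Fin.castLE hcn i) (a i) ∈ s) :
    ∃ T : ℕ → Finset (Fin n →₀ ℕ), ∀ d,
      (∀ e ∈ T d, e.degree = d) ∧
      (∀ e : Fin n →₀ ℕ, e.degree = d → (∃ i : Fin c, a i ≤ e (Fin.castLE hcn i)) → e ∈ T d) ∧
      (∀ e ∈ T d, ∀ e' : Fin n →₀ ℕ, e'.degree = d →
        (∀ i : Fin c, e (Fin.castLE hcn i) < a i) → (∀ i : Fin c, e' (Fin.castLE hcn i) < a i) →
        toLex e < toLex e' → e' ∈ T d) ∧
      (T d).card = Module.finrank K
        ↥(degPart d (Ideal.span ((fun e => monomial e (1 : K)) '' s))) ∧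
      ∀ e ∈ T d, ∀ v : Fin n, e + Finsupp.single v 1 ∈ T (d + 1) := by
  classical
  let Up : (Fin n →₀ ℕ) → Prop := fun e => ∃ e0 ∈ s, e0 ≤ e
  have hspan : Ideal.span ((fun e => monomial e (1 : K)) '' s) =
      Ideal.span ((fun e => monomial e (1 : K)) '' {e | Up e}) := by
    refine le_antisymm (Ideal.span_mono (Set.image_mono fun e he => ⟨e, he, le_rfl⟩))
      (Ideal.span_le.2 ?_)
    rintro _ ⟨e, ⟨e0, he0, hle⟩, rfl⟩
    obtain ⟨δ, rfl⟩ := le_iff_exists_add.1 hle
    show monomial (e0 + δ) (1 : K) ∈ _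
    rw [show monomial (e0 + δ) (1 : K) = monomial δ 1 * monomial e0 1 by
      rw [monomial_mul, one_mul, add_comm]]
    exact Ideal.mul_mem_left _ _ (Ideal.subset_span ⟨e0, he0, rfl⟩)
  let exps : ℕ → Finset (Fin n →₀ ℕ) := fun d => univ.finsuppAntidiag d
  have hexps : ∀ {d : ℕ} {e : Fin n →₀ ℕ}, e ∈ exps d ↔ e.degree = d := fun {d e} => by
    simp [exps, Finsupp.degree_eq_sum]
  obtain ⟨B, hB⟩ : ∃ B, ∀ i, a i ≤ B :=
    ⟨∑ i, a i, fun i => single_le_sum (fun j _ => Nat.zero_le _) (mem_univ i)⟩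
  -- the reduced exponents of the ideal in each degree
  let bd : ℕ → Finset (Fin n → ℕ) := fun d => box (sides a (B + d + 1)) d
  let A : ℕ → Finset (Fin n → ℕ) := fun d =>
    (bd d).filter fun x => Up (Finsupp.equivFunOnFinite.symm x)
  have hbox : ∀ {N d : ℕ}, d < N → box (sides (n := n) a N) d = bd d := fun {N d} h => by
    ext x
    rw [mem_box_sides hcn h, mem_box_sides hcn (show d < B + d + 1 by omega)]
  choose C hC hCcard using fun d => exists_seg (sides (n := n) a (B + d + 1)) d (A d).card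
    (card_le_card (filter_subset _ _))
  let T : ℕ → Finset (Fin n →₀ ℕ) := fun d =>
    (exps d).filter fun e => ¬ Reduced hcn a e ∨ ⇑e ∈ C d
  have hcoe : ∀ {d : ℕ} {e : Fin n →₀ ℕ}, e.degree = d → Reduced hcn a e → ⇑e ∈ bd d :=
    fun {d e} hd h => (mem_box_sides hcn (by omega)).2 ⟨by rw [← hd, Finsupp.degree_eq_sum], h⟩
  refine ⟨T, fun d => ⟨fun e he => hexps.1 (mem_filter.1 he).1, fun e hd ⟨i, hi⟩ =>
    mem_filter.2 ⟨hexps.2 hd, Or.inl fun h => absurd hi (not_le.2 (h i))⟩, ?_, ?_, ?_⟩⟩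
  · intro e he e' hd' hr hr' hlt
    obtain ⟨-, he⟩ := mem_filter.1 he
    refine mem_filter.2 ⟨hexps.2 hd', Or.inr ?_⟩
    refine (hC d).2 _ (he.resolve_left fun h => h hr) _ (hcoe hd' hr') (le_of_lt ?_)
    exact Finsupp.Lex.lt_iff.1 hlt
  · rw [hspan, finrank_monomialIdeal {e | Up e}
      (fun e ⟨e0, he0, h⟩ e' hle => ⟨e0, he0, h.trans hle⟩),
      ← card_filter_add_card_filter_not (fun e : Fin n →₀ ℕ => Reduced hcn a e)]
    rw [Nat.card_congr (Equiv.subtypeEquivRight (q := fun e => e ∈ (exps d).filter Up)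
      fun e => by simp [hexps]), Nat.card_eq_finsetCard,
      ← card_filter_add_card_filter_not (s := (exps d).filter Up)
        (fun e : Fin n →₀ ℕ => Reduced hcn a e)]
    congr 1
    · have h1 : ∀ {S : Finset (Fin n → ℕ)}, S ⊆ bd d → ∀ {p : (Fin n →₀ ℕ) → Prop}
          [DecidablePred p], (∀ e : Fin n →₀ ℕ, e.degree = d → Reduced hcn a e → (p e ↔ ⇑e ∈ S)) →
          (((exps d).filter p).filter fun e : Fin n →₀ ℕ => Reduced hcn a ⇑e).card = S.card := by
        intro S hS p _ hp
        refine card_nbij' (fun e => ⇑e) (fun x => Finsupp.equivFunOnFinite.symm x) ?_ ?_ ?_ ?_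
        · intro e he
          obtain ⟨he, hr⟩ := mem_filter.1 he
          obtain ⟨he, hpe⟩ := mem_filter.1 he
          exact (hp e (hexps.1 he) hr).1 hpe
        · intro x hx
          obtain ⟨h1, h2⟩ := (mem_box_sides hcn (by omega)).1 (hS hx)
          have hd : (Finsupp.equivFunOnFinite.symm x).degree = d := by
            rw [Finsupp.degree_eq_sum]; exact h1
          exact mem_filter.2 ⟨mem_filter.2 ⟨hexps.2 hd, (hp _ hd h2).2 hx⟩, h2⟩
        · intro e _; exact Finsupp.ext fun i => rfl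
        · intro x _; rfl
      rw [h1 (hC d).1 (fun e _ hr => by simp [hr]), hCcard,
        h1 (S := A d) (filter_subset _ _) (fun e hd hr => by
          simp only [A, mem_filter, hcoe hd hr, true_and]
          rw [show Finsupp.equivFunOnFinite.symm ⇑e = e from Finsupp.ext fun i => rfl])]
    · refine congrArg Finset.card (Finset.ext fun e => ?_)
      simp only [T, mem_filter]
      refine ⟨fun ⟨⟨h1, _⟩, h2⟩ => ⟨⟨h1, ?_⟩, h2⟩, fun ⟨⟨h1, _⟩, h2⟩ => ⟨⟨h1, Or.inl h2⟩, h2⟩⟩
      simp only [Reduced, not_forall, not_lt] at h2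
      obtain ⟨i, hi⟩ := h2
      exact ⟨_, hs i, Finsupp.single_le_iff.2 hi⟩
  · intro e he v
    obtain ⟨hd, hor⟩ := mem_filter.1 he
    rw [hexps] at hd
    have hd' : (e + Finsupp.single v 1).degree = d + 1 := by simp [hd]
    refine mem_filter.2 ⟨hexps.2 hd', ?_⟩
    by_cases hr : Reduced hcn a ⇑(e + Finsupp.single v 1 : Fin n →₀ ℕ)
    · right
      have hre : Reduced hcn a ⇑e := fun i => lt_of_le_of_lt (by simp) (hr i)
      have heC := hor.resolve_left fun h => h hre
      obtain ⟨N, hN1, hN2⟩ : ∃ N, d + 1 < N ∧ ∀ i, a i ≤ N :=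
        ⟨B + d + 2, by omega, fun i => (hB i).trans (by omega)⟩
      have hseg : IsSeg (sides a N) d (C d) := by
        have := hC d
        rw [IsSeg] at this ⊢
        rwa [hbox (by omega : d < N)]
      have hseg' : IsSeg (sides a N) (d + 1) (C (d + 1)) := by
        have := hC (d + 1)
        rw [IsSeg] at this ⊢
        rwa [hbox hN1]
      have hAsub : A d ⊆ box (sides a N) d := by
        rw [hbox (by omega : d < N)]; exact filter_subset _ _
      have hup : up (sides a N) d (A d) ⊆ A (d + 1) := fun y hy => by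
        obtain ⟨hyb, x, hx, j, rfl⟩ := mem_up.1 hy
        obtain ⟨e0, he0, hle⟩ := (mem_filter.1 hx).2
        refine mem_filter.2 ⟨(hbox hN1) ▸ hyb, e0, he0, hle.trans fun k => ?_⟩
        simp [bump_apply]
        split_ifs <;> omega
      refine (hseg.up.subset_of_card_le hseg' ?_) (mem_up.2 ⟨?_, _, heC, v, ?_⟩)
      · rw [hCcard]
        exact ((clementsLindstrom (sides_monotone ha hN2) hAsub hseg (hCcard d)).trans
          (card_le_card hup))
      · rw [hbox hN1]
        exact hcoe hd' hr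
      · funext k
        rw [bump_apply]
        simp [Finsupp.single_apply, eq_comm]
        split_ifs <;> omega
    · exact Or.inl hr

end Vale.Agent.P200.Box
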