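import Mathlib

/-!
Points of a box in a fixed degree, their upper shadows, lex segments and slices.
-/

namespace Vale.Agent.P200.Box

open Finset

variable {n : ℕ}

/-- Add one in the coordinate `i`. -/
def bump (x : Fin n → ℕ) (i : Fin n) : Fin n → ℕ := x + Pi.single i 1

/-- The points of degree `d` with `x i < a i`. -/
def box (a : Fin n → ℕ) (d : ℕ) : Finset (Fin n → ℕ) :=
  (Fintype.piFinset fun i => range (a i)).filter fun x => ∑ i, x i = d

/-- The points of degree `d + 1` of the box above `A`. -/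
def up (a : Fin n → ℕ) (d : ℕ) (A : Finset (Fin n → ℕ)) : Finset (Fin n → ℕ) :=
  (box a (d + 1)).filter fun y => ∃ x ∈ A, ∃ i, bump x i = y

/-- A lex-upper segment of a degree of the box. -/
def IsSeg (a : Fin n → ℕ) (d : ℕ) (A : Finset (Fin n → ℕ)) : Prop :=
  A ⊆ box a d ∧ ∀ x ∈ A, ∀ y ∈ box a d, toLex x ≤ toLex y → y ∈ A

/-- The slice of `A` at `x i = t`, with that coordinate removed. -/
def slice (i : Fin (n + 1)) (a : Fin (n + 1) → ℕ) (d : ℕ) (A : Finset (Fin (n + 1) → ℕ)) (t : ℕ) :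
    Finset (Fin n → ℕ) :=
  (box (i.removeNth a) (d - t)).filter fun z => i.insertNth t z ∈ A

lemma mem_box {a : Fin n → ℕ} {d : ℕ} {x : Fin n → ℕ} :
    x ∈ box a d ↔ (∀ i, x i < a i) ∧ ∑ i, x i = d := by
  simp [box]

lemma sum_bump (x : Fin n → ℕ) (i : Fin n) : ∑ j, bump x i j = ∑ j, x j + 1 := by
  simp [bump, sum_add_distrib]

lemma bump_apply (x : Fin n → ℕ) (i j : Fin n) :
    bump x i j = if j = i then x j + 1 else x j := by
  rcases eq_or_ne j i with rfl | h <;> simp [bump, *]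

lemma mem_up {a : Fin n → ℕ} {d : ℕ} {A : Finset (Fin n → ℕ)} {y : Fin n → ℕ} :
    y ∈ up a d A ↔ y ∈ box a (d + 1) ∧ ∃ x ∈ A, ∃ i, bump x i = y := by
  simp [up]

lemma up_mono {a : Fin n → ℕ} {d : ℕ} {A B : Finset (Fin n → ℕ)} (h : A ⊆ B) :
    up a d A ⊆ up a d B := fun y hy => by
  obtain ⟨h1, x, hx, hi⟩ := mem_up.1 hy
  exact mem_up.2 ⟨h1, x, h hx, hi⟩

lemma bump_mem_box {a : Fin n → ℕ} {d : ℕ} {x : Fin n → ℕ} (hx : x ∈ box a d) {i : Fin n}
    (h : x i + 1 < a i) : bump x i ∈ box a (d + 1) := by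
  rw [mem_box] at *
  refine ⟨fun j => ?_, by rw [sum_bump, hx.2]⟩
  rw [bump_apply]
  split_ifs with hj
  · exact hj ▸ h
  · exact hx.1 j

lemma toLex_lt_of_first {x y : Fin n → ℕ} (k : Fin n) (he : ∀ j, j < k → x j = y j)
    (hlt : x k < y k) : toLex x < toLex y :=
  ⟨k, he, hlt⟩

lemma exists_first_of_lt {x y : Fin n → ℕ} (h : toLex x < toLex y) :
    ∃ k, (∀ j, j < k → x j = y j) ∧ x k < y k :=
  h

lemma isSeg_box (a : Fin n → ℕ) (d : ℕ) : IsSeg a d (box a d) :=
  ⟨subset_rfl, fun _ _ _ hy _ => hy⟩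

lemma IsSeg.nested {a : Fin n → ℕ} {d : ℕ} {A B : Finset (Fin n → ℕ)} (hA : IsSeg a d A)
    (hB : IsSeg a d B) : A ⊆ B ∨ B ⊆ A := by
  by_contra h
  rw [not_or, not_subset, not_subset] at h
  obtain ⟨⟨x, hxA, hxB⟩, y, hyB, hyA⟩ := h
  rcases le_total (toLex x) (toLex y) with h | h
  · exact hyA (hA.2 x hxA y (hB.1 hyB) h)
  · exact hxB (hB.2 y hyB x (hA.1 hxA) h)

lemma IsSeg.subset_of_card_le {a : Fin n → ℕ} {d : ℕ} {A B : Finset (Fin n → ℕ)}
    (hA : IsSeg a d A) (hB : IsSeg a d B) (h : A.card ≤ B.card) : A ⊆ B := by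
  rcases hA.nested hB with h1 | h1
  · exact h1
  · exact (eq_of_subset_of_card_le h1 h).ge

open Classical in
/-- The number of greater points. -/
noncomputable def pos (a : Fin n → ℕ) (d : ℕ) (x : Fin n → ℕ) : ℕ :=
  ((box a d).filter fun y => toLex x < toLex y).card

lemma pos_lt {a : Fin n → ℕ} {d : ℕ} {x y : Fin n → ℕ} (hy : y ∈ box a d)
    (h : toLex x < toLex y) : pos a d y < pos a d x := by
  classical
  unfold pos
  refine card_lt_card ((ssubset_iff_of_subset fun z hz => ?_).2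
    ⟨y, mem_filter.2 ⟨hy, h⟩, fun hh => lt_irrefl _ (mem_filter.1 hh).2⟩)
  exact mem_filter.2 ⟨(mem_filter.1 hz).1, h.trans (mem_filter.1 hz).2⟩

lemma sum_pos_swap {a : Fin n → ℕ} {d : ℕ} {A : Finset (Fin n → ℕ)} {u v : Fin n → ℕ}
    (hu : u ∈ box a d) (hv : v ∈ A) (huA : u ∉ A) (h : toLex v < toLex u) :
    ∑ x ∈ insert u (A.erase v), pos a d x < ∑ x ∈ A, pos a d x := by
  rw [sum_insert (fun hh => huA (mem_of_mem_erase hh)), ← add_sum_erase A _ hv]
  have := pos_lt hu h
  omega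

lemma card_swap {A : Finset (Fin n → ℕ)} {u v : Fin n → ℕ}
    (hv : v ∈ A) (huA : u ∉ A) : (insert u (A.erase v)).card = A.card := by
  rw [card_insert_of_notMem fun hh => huA (mem_of_mem_erase hh), card_erase_of_mem hv]
  have := card_pos.2 ⟨v, hv⟩
  omega

lemma exists_seg (a : Fin n → ℕ) (d m : ℕ) (h : m ≤ (box a d).card) :
    ∃ C, IsSeg a d C ∧ C.card = m := by
  obtain ⟨C, hC, hmin⟩ := exists_min_image ((box a d).powersetCard m)
    (fun C => ∑ x ∈ C, pos a d x) (powersetCard_nonempty.2 h)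
  obtain ⟨hsub, hcard⟩ := mem_powersetCard.1 hC
  refine ⟨C, ⟨hsub, fun x hx y hy hxy => by_contra fun hyC => ?_⟩, hcard⟩
  have hlt : toLex x < toLex y := lt_of_le_of_ne hxy fun e => hyC (toLex.injective e ▸ hx)
  refine absurd (hmin _ (mem_powersetCard.2 ⟨?_, (card_swap hx hyC).trans hcard⟩))
    (not_le.2 (sum_pos_swap hy hx hyC hlt))
  exact insert_subset hy ((erase_subset _ _).trans hsub)

/-- Removing the last positive coordinate gives the greatest parent. -/
lemma exists_last {y : Fin n → ℕ} (h : ∑ i, y i ≠ 0) :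
    ∃ p, 0 < y p ∧ ∀ j, p < j → y j = 0 := by
  have hne : (univ.filter fun j => 0 < y j).Nonempty := by
    obtain ⟨j, -, hj⟩ := exists_ne_zero_of_sum_ne_zero h
    exact ⟨j, mem_filter.2 ⟨mem_univ _, Nat.pos_of_ne_zero hj⟩⟩
  obtain ⟨p, hp, hmax⟩ := exists_max_image _ id hne
  refine ⟨p, (mem_filter.1 hp).2, fun j hj => Nat.eq_zero_of_not_pos fun h0 => ?_⟩
  exact absurd hj (not_lt.2 (hmax j (mem_filter.2 ⟨mem_univ _, h0⟩)))

lemma sub_single_mem_box {a : Fin n → ℕ} {d : ℕ} {y : Fin n → ℕ} (hy : y ∈ box a (d + 1))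
    {p : Fin n} (hp : 0 < y p) :
    y - Pi.single p 1 ∈ box a d ∧ bump (y - Pi.single p 1) p = y := by
  have hb : bump (y - Pi.single p 1) p = y := by
    funext j
    rw [bump_apply]
    split_ifs with hj
    · subst hj; simp; omega
    · simp [hj]
  refine ⟨mem_box.2 ⟨fun i => ?_, ?_⟩, hb⟩
  · have := (mem_box.1 hy).1 i
    simp only [Pi.sub_apply]
    omega
  · have := (mem_box.1 hy).2
    rw [← hb, sum_bump] at this
    omega

/-- The upper shadow of a segment is a segment. -/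
lemma IsSeg.up {a : Fin n → ℕ} {d : ℕ} {A : Finset (Fin n → ℕ)} (hA : IsSeg a d A) :
    IsSeg a (d + 1) (up a d A) := by
  refine ⟨filter_subset _ _, fun y hy y' hy' hle => ?_⟩
  rcases hle.eq_or_lt with h | h
  · exact toLex.injective h ▸ hy
  obtain ⟨hybox, x, hx, i, rfl⟩ := mem_up.1 hy
  obtain ⟨p', hp', hlast'⟩ := exists_last (y := y') (by rw [(mem_box.1 hy').2]; omega)
  obtain ⟨hx'box, hb'⟩ := sub_single_mem_box hy' hp'
  refine mem_up.2 ⟨hy', _, hA.2 x hx _ hx'box ?_, p', hb'⟩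
  set x' := y' - Pi.single p' 1 with hx'def
  obtain ⟨k, he, hlt⟩ := exists_first_of_lt h
  refine le_of_not_gt fun hcon => ?_
  obtain ⟨l, he', hlt'⟩ := exists_first_of_lt hcon
  have hxy : ∀ j, x j ≤ bump x i j := fun j => by rw [bump_apply]; split_ifs <;> omega
  have hx' : ∀ j, j ≠ p' → x' j = y' j := fun j hj => by simp [hx'def, hj]
  have hx'p : x' p' = y' p' - 1 := by simp [hx'def]
  have hpk : k ≤ p' := le_of_not_gt fun hh => by have := hlast' k hh; omega
  rcases lt_trichotomy l k with hlk | rfl | hlk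
  · have h1 := hxy l
    have h2 := he l hlk
    rw [hx' l (ne_of_lt (hlk.trans_le hpk))] at hlt'
    omega
  · have h1 := hxy l
    rcases hpk.eq_or_lt with rfl | h2
    · omega
    · rw [hx' l h2.ne] at hlt'; omega
  · have h1 := hxy k
    have h2 := he' k hlk
    rcases hpk.eq_or_lt with rfl | h3
    · -- all later coordinates of `y'` vanish, so `x'` and `x` agree there too
      have hsum : ∀ j, x' j ≤ x j := by
        intro j
        rcases lt_trichotomy j k with hj | rfl | hj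
        · exact (he' j (hj.trans hlk)).le
        · exact h2.le
        · rw [hx' j (ne_of_gt hj), hlast' j hj]; exact Nat.zero_le _
      have hs1 := (mem_box.1 hx'box).2
      have hs2 := (mem_box.1 (hA.1 hx)).2
      have hstrict : ∑ j, x' j < ∑ j, x j :=
        sum_lt_sum (fun j _ => hsum j) ⟨l, mem_univ _, hlt'⟩
      omega
    · rw [hx' k h3.ne] at h2; omega

/-! ### Slices -/

section Slice

variable {i : Fin (n + 1)} {a : Fin (n + 1) → ℕ} {d : ℕ}

lemma mem_box_insertNth {t : ℕ} {z : Fin n → ℕ} :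
    i.insertNth t z ∈ box a d ↔ t < a i ∧ t ≤ d ∧ z ∈ box (i.removeNth a) (d - t) := by
  simp only [mem_box, Fin.forall_iff_succAbove i, Fin.sum_univ_succAbove _ i,
    Fin.insertNth_apply_same, Fin.insertNth_apply_succAbove, Fin.removeNth]
  constructor
  · rintro ⟨⟨h1, h2⟩, h3⟩
    exact ⟨h1, by omega, h2, by omega⟩
  · rintro ⟨h1, h2, h3, h4⟩
    exact ⟨⟨h1, h3⟩, by omega⟩

lemma mem_slice {A : Finset (Fin (n + 1) → ℕ)} (hA : A ⊆ box a d) {t : ℕ} {z : Fin n → ℕ} :
    z ∈ slice i a d A t ↔ i.insertNth t z ∈ A := by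
  simp only [slice, mem_filter, and_iff_right_iff_imp]
  exact fun h => (mem_box_insertNth.1 (hA h)).2.2

lemma insertNth_lt {t : ℕ} {z z' : Fin n → ℕ} (h : toLex z < toLex z') :
    toLex (i.insertNth t z : Fin (n + 1) → ℕ) < toLex (i.insertNth t z' : Fin (n + 1) → ℕ) := by
  obtain ⟨k, he, hlt⟩ := exists_first_of_lt h
  refine toLex_lt_of_first (i.succAbove k) (fun j hj => ?_) (by simpa using hlt)
  rcases Fin.eq_self_or_eq_succAbove i j with rfl | ⟨l, rfl⟩
  · simp
  · simpa using he l ((Fin.strictMono_succAbove i).lt_iff_lt.1 hj)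

lemma sum_slices {A : Finset (Fin (n + 1) → ℕ)} (hA : A ⊆ box a d)
    (g : (Fin (n + 1) → ℕ) → ℕ) :
    ∑ x ∈ A, g x = ∑ t ∈ range (a i), ∑ z ∈ slice i a d A t, g (i.insertNth t z) := by
  rw [← sum_fiberwise_of_maps_to (g := fun x => x i) (t := range (a i))
    fun x hx => mem_range.2 ((mem_box.1 (hA hx)).1 i)]
  refine sum_congr rfl fun t _ => sum_nbij' (fun x => i.removeNth x) (fun z => i.insertNth t z)
    ?_ ?_ ?_ ?_ ?_
  · intro x hx
    obtain ⟨hx, rfl⟩ := mem_filter.1 hx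
    exact (mem_slice hA).2 (by rwa [Fin.insertNth_self_removeNth])
  · intro z hz
    exact mem_filter.2 ⟨(mem_slice hA).1 hz, Fin.insertNth_apply_same _ _ _⟩
  · intro x hx
    obtain ⟨-, rfl⟩ := mem_filter.1 hx
    exact Fin.insertNth_self_removeNth _ _
  · intro z _
    exact Fin.removeNth_insertNth _ _ _
  · intro x hx
    obtain ⟨-, rfl⟩ := mem_filter.1 hx
    rw [Fin.insertNth_self_removeNth]

lemma card_slices {A : Finset (Fin (n + 1) → ℕ)} (hA : A ⊆ box a d) :
    A.card = ∑ t ∈ range (a i), (slice i a d A t).card := by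
  simpa using sum_slices (i := i) hA fun _ => 1

lemma bump_insertNth_self (t : ℕ) (z : Fin n → ℕ) :
    bump (i.insertNth t z) i = i.insertNth (t + 1) z := by
  funext j
  rcases Fin.eq_self_or_eq_succAbove i j with rfl | ⟨l, rfl⟩ <;> simp [bump_apply]

lemma bump_insertNth_succAbove (t : ℕ) (z : Fin n → ℕ) (k : Fin n) :
    bump (i.insertNth t z) (i.succAbove k) = i.insertNth t (bump z k) := by
  funext j
  rcases Fin.eq_self_or_eq_succAbove i j with rfl | ⟨l, rfl⟩ <;>
    simp [bump_apply, (Fin.succAbove_ne _ _).symm]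

/-- The slices of an upper shadow. -/
lemma slice_up {A : Finset (Fin (n + 1) → ℕ)} (hA : A ⊆ box a d) {t : ℕ} (ht : t < a i) :
    slice i a (d + 1) (up a d A) t = up (i.removeNth a) (d - t) (slice i a d A t) ∪
      if t = 0 then ∅ else slice i a d A (t - 1) := by
  ext z
  rw [mem_slice (show up a d A ⊆ box a (d + 1) from filter_subset _ _), mem_union, mem_up, mem_up]
  constructor
  · rintro ⟨hy, x, hx, j, hj⟩
    rcases Fin.eq_self_or_eq_succAbove i j with rfl | ⟨k, rfl⟩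
    · rw [← Fin.insertNth_self_removeNth j x, bump_insertNth_self, Fin.insertNth_inj] at hj
      obtain ⟨h1, rfl⟩ := hj
      right
      rw [if_neg (by omega), mem_slice hA, show t - 1 = x j by omega,
        Fin.insertNth_self_removeNth]
      exact hx
    · rw [← Fin.insertNth_self_removeNth i x, bump_insertNth_succAbove, Fin.insertNth_inj] at hj
      obtain ⟨h1, rfl⟩ := hj
      subst h1
      have hxb : i.insertNth (x i) (i.removeNth x) ∈ box a d := by
        rw [Fin.insertNth_self_removeNth]; exact hA hx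
      obtain ⟨-, hle, hz⟩ := mem_box_insertNth.1 hxb
      obtain ⟨-, -, hy'⟩ := mem_box_insertNth.1 hy
      rw [show d + 1 - x i = d - x i + 1 by omega] at hy'
      exact Or.inl ⟨hy', _, (mem_slice hA).2 (by rwa [Fin.insertNth_self_removeNth]), k, rfl⟩
  · rintro (⟨hz, w, hw, k, rfl⟩ | h)
    · have hwA := (mem_slice hA).1 hw
      obtain ⟨-, hle, -⟩ := mem_box_insertNth.1 (hA hwA)
      refine ⟨mem_box_insertNth.2 ⟨ht, by omega, ?_⟩, _, hwA, _, bump_insertNth_succAbove t w k⟩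
      rwa [show d + 1 - t = d - t + 1 by omega]
    · split_ifs at h with h0
      · simp at h
      have hzA := (mem_slice hA).1 h
      obtain ⟨-, hle, hb⟩ := mem_box_insertNth.1 (hA hzA)
      refine ⟨mem_box_insertNth.2 ⟨ht, by omega, ?_⟩, _, hzA, i, ?_⟩
      · rwa [show d + 1 - t = d - (t - 1) by omega]
      · rw [bump_insertNth_self, show t - 1 + 1 = t by omega]

end Slice

end Vale.Agent.P200.Box
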