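import Vale.Agent.P200.Box.Basic

/-!
The Clements-Lindström theorem: among sets of a given size in one degree of a box with increasing
sides, lex segments have the smallest upper shadow. The proof minimises the positions of the set:
a minimiser has segments as slices, and then exchanging the least member with the greatest
non-member does not enlarge the shadow.
-/

namespace Vale.Agent.P200.Box

open Finset

/-- Two coordinates: a direct count. -/
lemma cl_two {a : Fin 2 → ℕ} (ha : Monotone a) {d : ℕ} {A C : Finset (Fin 2 → ℕ)}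
    (hA : A ⊆ box a d) (hC : IsSeg a d C) (hcard : C.card = A.card) :
    (up a d C).card ≤ (up a d A).card := by
  classical
  have hbox : ∀ {d : ℕ} {x : Fin 2 → ℕ}, x ∈ box a d → x 0 + x 1 = d ∧ x 0 < a 0 ∧ x 1 < a 1 :=
    fun {d x} hx => ⟨by simpa [Fin.sum_univ_two] using (mem_box.1 hx).2,
      (mem_box.1 hx).1 0, (mem_box.1 hx).1 1⟩
  have hext : ∀ {x y : Fin 2 → ℕ}, x 0 = y 0 → x 1 = y 1 → x = y :=
    fun h0 h1 => funext (Fin.forall_fin_two.2 ⟨h0, h1⟩)
  by_cases hfull : box a d ⊆ A
  · have hAeq : A = box a d := Subset.antisymm hA hfull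
    rw [eq_of_subset_of_card_le hC.1 (by rw [hcard, hAeq]), hAeq]
  obtain ⟨g, hg, hgA⟩ := not_subset.1 hfull
  obtain ⟨hg1, hg2, hg3⟩ := hbox hg
  have ha01 : a 0 ≤ a 1 := ha (Fin.zero_le _)
  -- children of a segment
  have hparent : ∀ y ∈ up a d C, 0 < y 1 → y ∈ C.image (bump · 1) := by
    intro y hy hy1
    obtain ⟨hyb, c, hc, j, hj⟩ := mem_up.1 hy
    obtain ⟨hx, hb⟩ := sub_single_mem_box hyb hy1
    refine mem_image.2 ⟨_, hC.2 c hc _ hx ?_, hb⟩
    rcases Fin.exists_fin_two.1 ⟨j, rfl⟩ with h | h
    · refine le_of_lt (toLex_lt_of_first 0 (fun l hl => absurd hl (by simp)) ?_)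
      subst h hj
      simp [bump_apply]
    · subst h
      refine le_of_eq (congrArg toLex (hext ?_ ?_))
      all_goals rw [← hj]; simp [bump_apply]
  by_cases hlow : d + 1 < a 0
  · rcases A.eq_empty_or_nonempty with rfl | hne
    · rw [card_empty, card_eq_zero] at hcard
      rw [hcard]
    obtain ⟨m, hm, hmax⟩ := exists_max_image A (fun x => x 0) hne
    have h1 : (up a d C).card ≤ C.card + 1 := by
      refine (card_le_card (t := insert (fun j => if j = 0 then d + 1 else 0)
        (C.image (bump · 1))) fun y hy => ?_).trans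
        ((card_insert_le _ _).trans (Nat.add_le_add_right card_image_le _))
      rcases Nat.eq_zero_or_pos (y 1) with h0 | h0
      · obtain ⟨hs, -, -⟩ := hbox (mem_up.1 hy).1
        refine mem_insert.2 (Or.inl (hext ?_ ?_)) <;> simp <;> omega
      · exact mem_insert_of_mem (hparent y hy h0)
    have h2 : A.card + 1 ≤ (up a d A).card := by
      have hni : bump m 0 ∉ A.image (bump · 1) := fun h => by
        obtain ⟨x, hx, he⟩ := mem_image.1 h
        have h0 := congrFun he 0
        simp [bump_apply] at h0
        have := hmax x hx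
        omega
      calc A.card + 1 = (insert (bump m 0) (A.image (bump · 1))).card := by
            rw [card_insert_of_notMem hni,
              card_image_of_injective A (f := fun x => bump x 1)
                (show Function.Injective fun x => bump x 1 from fun x y h => add_right_cancel h)]
        _ ≤ _ := by
            refine card_le_card (insert_subset ?_ fun y hy => ?_)
            · obtain ⟨hs, hx0, hx1⟩ := hbox (hA hm)
              exact mem_up.2 ⟨bump_mem_box (hA hm) (by omega), m, hm, 0, rfl⟩
            · obtain ⟨x, hx, rfl⟩ := mem_image.1 hy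
              obtain ⟨hs, hx0, hx1⟩ := hbox (hA hx)
              exact mem_up.2 ⟨bump_mem_box (hA hx) (by omega), x, hx, 1, rfl⟩
    omega
  · calc (up a d C).card ≤ (C.image (bump · 1)).card := card_le_card fun y hy => by
          obtain ⟨hs, hy0, -⟩ := hbox (mem_up.1 hy).1
          exact hparent y hy (by omega)
      _ ≤ A.card := card_image_le.trans hcard.le
      _ ≤ (up a d A).card := by
          refine card_le_card_of_injOn (fun x => if g 0 < x 0 then bump x 1 else bump x 0)
            (fun x hx => ?_) ?_
          · obtain ⟨hs, hx0, hx1⟩ := hbox (hA hx)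
            have hne : x 0 ≠ g 0 := fun h => hgA ((hext h (by omega)) ▸ hx)
            show (if g 0 < x 0 then bump x 1 else bump x 0) ∈ up a d A
            split_ifs with h
            · exact mem_up.2 ⟨bump_mem_box (hA hx) (by omega), x, hx, 1, rfl⟩
            · exact mem_up.2 ⟨bump_mem_box (hA hx) (by omega), x, hx, 0, rfl⟩
          · intro x hx y hy he
            obtain ⟨hxs, -, -⟩ := hbox (hA hx)
            obtain ⟨hys, -, -⟩ := hbox (hA hy)
            have hxg : x 0 ≠ g 0 := fun h => hgA ((hext h (by omega)) ▸ hx)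
            have hyg : y 0 ≠ g 0 := fun h => hgA ((hext h (by omega)) ▸ hy)
            have h0 := congrFun he 0
            simp only at h0
            refine hext ?_ ?_ <;> split_ifs at h0 <;> simp [bump_apply] at h0 <;> omega

variable {n : ℕ}

/-- Replacing every slice by a segment of the same size. -/
lemma exists_compressed {i : Fin (n + 1)} {a : Fin (n + 1) → ℕ} {d : ℕ}
    (hcl : ∀ {d : ℕ} {A C : Finset (Fin n → ℕ)}, A ⊆ box (i.removeNth a) d →
      IsSeg (i.removeNth a) d C → C.card = A.card →
      (up (i.removeNth a) d C).card ≤ (up (i.removeNth a) d A).card)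
    {A : Finset (Fin (n + 1) → ℕ)} (hA : A ⊆ box a d)
    {t₀ : ℕ} (ht₀ : t₀ < a i) (hns : ¬ IsSeg (i.removeNth a) (d - t₀) (slice i a d A t₀)) :
    ∃ A', A' ⊆ box a d ∧ A'.card = A.card ∧ (up a d A').card ≤ (up a d A).card ∧
      ∑ x ∈ A', pos a d x < ∑ x ∈ A, pos a d x := by
  classical
  have hsub : ∀ t, slice i a d A t ⊆ box (i.removeNth a) (d - t) := fun t => filter_subset _ _
  choose C hC hCcard using fun t => exists_seg (i.removeNth a) (d - t) (slice i a d A t).card
    (card_le_card (hsub t))
  have hCe : ∀ t, d < t → C t = ∅ := fun t ht => by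
    rw [← card_eq_zero, hCcard, card_eq_zero, eq_empty_iff_forall_notMem]
    intro z hz
    have := (mem_box_insertNth.1 (hA ((mem_slice hA).1 hz))).2.1
    omega
  let A' : Finset (Fin (n + 1) → ℕ) := (range (a i)).biUnion fun t =>
    (C t).image fun z => (i.insertNth t z : Fin (n + 1) → ℕ)
  have hA' : A' ⊆ box a d := fun y hy => by
    obtain ⟨t, ht, hy⟩ := mem_biUnion.1 hy
    obtain ⟨z, hz, rfl⟩ := mem_image.1 hy
    have hle : t ≤ d := le_of_not_gt fun h => by simp [hCe t h] at hz
    exact mem_box_insertNth.2 ⟨mem_range.1 ht, hle, (hC t).1 hz⟩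
  have hsl : ∀ t < a i, slice i a d A' t = C t := by
    intro t ht
    ext z
    rw [mem_slice hA', mem_biUnion]
    constructor
    · rintro ⟨s, -, hz⟩
      obtain ⟨w, hw, he⟩ := mem_image.1 hz
      obtain ⟨rfl, rfl⟩ := Fin.insertNth_inj.1 he
      exact hw
    · exact fun hz => ⟨t, mem_range.2 ht, mem_image_of_mem _ hz⟩
  refine ⟨A', hA', ?_, ?_, ?_⟩
  · rw [card_slices (i := i) hA', card_slices (i := i) hA]
    exact sum_congr rfl fun t ht => by rw [hsl t (mem_range.1 ht), hCcard]
  · rw [card_slices (i := i) (show up a d A' ⊆ box a (d + 1) from filter_subset _ _),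
      card_slices (i := i) (show up a d A ⊆ box a (d + 1) from filter_subset _ _)]
    refine sum_le_sum fun t ht => ?_
    rw [mem_range] at ht
    rw [slice_up hA' ht, slice_up hA ht, hsl t ht]
    have hup := hcl (hsub t) (hC t) (hCcard t)
    have hle := card_le_card (subset_union_left (s₁ := up (i.removeNth a) (d - t)
      (slice i a d A t)) (s₂ := if t = 0 then ∅ else slice i a d A (t - 1)))
    have hle' := card_le_card (subset_union_right (s₁ := up (i.removeNth a) (d - t)
      (slice i a d A t)) (s₂ := if t = 0 then ∅ else slice i a d A (t - 1)))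
    by_cases h0 : t = 0
    · simpa [h0] using hup
    rw [if_neg h0] at hle hle' ⊢
    rw [hsl (t - 1) (by omega), if_neg h0]
    rcases lt_or_ge d t with hdt | hdt
    · rw [hCe t hdt, show up (i.removeNth a) (d - t) ∅ = ∅ by simp [up], empty_union, hCcard]
      exact hle'
    · have hs2 : IsSeg (i.removeNth a) (d - t + 1) (C (t - 1)) := by
        rw [show d - t + 1 = d - (t - 1) by omega]
        exact hC _
      rcases ((hC t).up).nested hs2 with h | h
      · rw [union_eq_right.2 h, hCcard]; exact hle'
      · rw [union_eq_left.2 h]; exact hup.trans hle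
  · rw [sum_slices (i := i) hA', sum_slices (i := i) hA]
    have hkey : ∀ t < a i, ∀ {S : Finset (Fin n → ℕ)}, S = slice i a d A t →
        ∑ z ∈ C t, pos a d (i.insertNth t z) ≤ ∑ z ∈ S, pos a d (i.insertNth t z) ∧
        (C t ≠ S → ∑ z ∈ C t, pos a d (i.insertNth t z) < ∑ z ∈ S, pos a d (i.insertNth t z)) := by
      intro t ht S hS
      by_cases hCS : C t = S
      · exact ⟨by rw [hCS], fun h => absurd hCS h⟩
      have hcard : (C t).card = S.card := hS ▸ hCcard t
      have hs1 := card_sdiff_add_card_inter (C t) S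
      have hs2 := card_sdiff_add_card_inter S (C t)
      rw [inter_comm S] at hs2
      have hne : (C t \ S).Nonempty := nonempty_iff_ne_empty.2 fun h =>
        hCS (eq_of_subset_of_card_le (sdiff_eq_empty_iff_subset.1 h) hcard.ge)
      obtain ⟨z₀, hz₀, hmax⟩ := exists_max_image _ (fun z => pos a d (i.insertNth t z)) hne
      have hlt : ∀ w ∈ S \ C t, pos a d (i.insertNth t z₀) < pos a d (i.insertNth t w) := by
        intro w hw
        obtain ⟨hwS, hwC⟩ := mem_sdiff.1 hw
        have hzC := (mem_sdiff.1 hz₀).1
        have hord : toLex w < toLex z₀ :=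
          lt_of_not_ge fun hh => hwC ((hC t).2 z₀ hzC w (hsub t (hS ▸ hwS)) hh)
        have hzb : i.insertNth t z₀ ∈ box a d :=
          hA' (mem_biUnion.2 ⟨t, mem_range.2 ht, mem_image_of_mem _ hzC⟩)
        exact pos_lt hzb (insertNth_lt hord)
      have hlt' : ∑ z ∈ C t, pos a d (i.insertNth t z) < ∑ z ∈ S, pos a d (i.insertNth t z) := by
        rw [← sum_inter_add_sum_sdiff (C t) S, ← sum_inter_add_sum_sdiff S (C t), inter_comm S]
        refine Nat.add_lt_add_left ?_ _
        calc ∑ z ∈ C t \ S, pos a d (i.insertNth t z)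
            ≤ (C t \ S).card * pos a d (i.insertNth t z₀) := by
              simpa using sum_le_card_nsmul _ _ _ hmax
          _ = ∑ _w ∈ S \ C t, pos a d (i.insertNth t z₀) := by
              rw [sum_const, smul_eq_mul, show (S \ C t).card = (C t \ S).card by omega]
          _ < _ := sum_lt_sum_of_nonempty
              (card_pos.1 (by have := hne.card_pos; omega)) hlt
      exact ⟨hlt'.le, fun _ => hlt'⟩
    refine sum_lt_sum (fun t ht => ?_) ⟨t₀, mem_range.2 ht₀, ?_⟩
    · rw [hsl t (mem_range.1 ht)]
      exact (hkey t (mem_range.1 ht) rfl).1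
    · rw [hsl t₀ ht₀]
      exact (hkey t₀ ht₀ rfl).2 fun h => hns (h ▸ hC t₀)

/-- With segments as slices, exchange the least member and the greatest non-member. -/
lemma exists_swapped {a : Fin (n + 3) → ℕ} {d : ℕ} {A : Finset (Fin (n + 3) → ℕ)}
    (hA : A ⊆ box a d) (hns : ¬ IsSeg a d A)
    (hsl : ∀ i : Fin (n + 3), ∀ t < a i, IsSeg (i.removeNth a) (d - t) (slice i a d A t)) :
    ∃ A', A' ⊆ box a d ∧ A'.card = A.card ∧ (up a d A').card ≤ (up a d A).card ∧
      ∑ x ∈ A', pos a d x < ∑ x ∈ A, pos a d x := by
  classical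
  simp only [IsSeg, hA, true_and, not_forall] at hns
  obtain ⟨x, hx, y, hy, hxy, hyA⟩ := hns
  obtain ⟨v, hv, hvmin⟩ := exists_min_image A toLex ⟨x, hx⟩
  obtain ⟨u, hu', humax⟩ := exists_max_image (box a d \ A) toLex
    ⟨y, mem_sdiff.2 ⟨hy, hyA⟩⟩
  obtain ⟨hu, huA⟩ := mem_sdiff.1 hu'
  have hlt : toLex v < toLex u :=
    lt_of_le_of_ne (((hvmin x hx).trans hxy).trans (humax y (mem_sdiff.2 ⟨hy, hyA⟩)))
      fun e => huA (toLex.injective e ▸ hv)
  have hshare : ∀ (p : Fin (n + 3)) (z w : Fin (n + 3) → ℕ), z ∈ A → w ∈ box a d →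
      z p = w p → toLex z ≤ toLex w → w ∈ A := by
    intro p z w hz hw hp hle
    have hz' : p.insertNth (z p) (p.removeNth z) ∈ A := by rwa [Fin.insertNth_self_removeNth]
    have hw' : p.insertNth (z p) (p.removeNth w) ∈ box a d := by
      rwa [hp, Fin.insertNth_self_removeNth]
    have hle' : toLex (p.removeNth z) ≤ toLex (p.removeNth w) := le_of_not_gt fun hh => by
      have := insertNth_lt (i := p) (t := z p) hh
      rw [Fin.insertNth_self_removeNth, hp, Fin.insertNth_self_removeNth] at this
      exact absurd this (not_lt.2 hle)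
    have hzs := (mem_slice hA (i := p)).2 hz'
    have := (mem_slice hA).1 ((hsl p (z p) ((mem_box.1 (hA hz)).1 p)).2 _ hzs _
      (mem_box_insertNth.1 hw').2.2 hle')
    rwa [hp, Fin.insertNth_self_removeNth] at this
  have hdiff : ∀ p, v p ≠ u p := fun p hp => huA (hshare p v u hv hu hp hlt.le)
  have hnone : ∀ w ∈ box a d, ∀ p q, v p = w p → toLex v ≤ toLex w → w q = u q →
      toLex w ≤ toLex u → False := fun w hw p q h1 h2 h3 h4 =>
    huA (hshare q w u (hshare p v w hv hw h1 h2) hu h3 h4)
  obtain ⟨hvb, hvs⟩ := mem_box.1 (hA hv)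
  obtain ⟨hub, hus⟩ := mem_box.1 hu
  have h0 : v 0 < u 0 := by
    obtain ⟨k, he, hk⟩ := exists_first_of_lt hlt
    rcases (Fin.zero_le k).eq_or_lt with rfl | hk'
    · exact hk
    · exact absurd (he 0 hk') (hdiff 0)
  set L := Fin.last (n + 2) with hL
  have h0L : (0 : Fin (n + 3)) < L := by simp [hL, Fin.lt_def]
  let J : Fin (n + 3) := ⟨1, by omega⟩
  have hJ : 0 < J ∧ J < L := by simp [J, hL, Fin.lt_def]
  have hvL : v L < u L := by
    refine lt_of_le_of_ne (le_of_not_gt fun hgt => ?_) (hdiff L)
    by_cases hmid : ∃ j, 0 < j ∧ j < L ∧ v j < u j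
    · obtain ⟨j, hj0, hjL, hj⟩ := hmid
      obtain ⟨e, he⟩ : ∃ e, e = min (u j - v j) (v L - u L) := ⟨_, rfl⟩
      let w : Fin (n + 3) → ℕ :=
        fun l => if l = j then v j + e else if l = L then v L - e else v l
      have hwb : w ∈ box a d := by
        refine mem_box.2 ⟨fun l => ?_, ?_⟩
        · have := hvb l; have := hub l
          simp only [w]
          split_ifs with c1 c2
          · subst c1; omega
          · subst c2; omega
          · omega
        · rw [← hvs, ← add_sum_erase _ w (mem_univ j), ← add_sum_erase _ v (mem_univ j),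
            ← add_sum_erase _ w (mem_erase.2 ⟨hjL.ne', mem_univ L⟩),
            ← add_sum_erase _ v (mem_erase.2 ⟨hjL.ne', mem_univ L⟩),
            sum_congr rfl (g := fun l => v l) fun l hl => ?_]
          · simp [w, hjL.ne']; omega
          · simp only [mem_erase] at hl
            simp [w, hl.1, hl.2.1]
      have hw0 : w 0 = v 0 := by simp [w, hj0.ne, h0L.ne]
      have hvw : toLex v ≤ toLex w := le_of_lt (toLex_lt_of_first j (fun l hl => by
        simp [w, hl.ne, (hl.trans hjL).ne]) (by simp [w]; omega))
      have hwu : toLex w ≤ toLex u := le_of_lt (toLex_lt_of_first 0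
        (fun l hl => absurd hl (by simp)) (by omega))
      rcases min_choice (u j - v j) (v L - u L) with hc | hc
      · exact hnone w hwb 0 j hw0.symm hvw (by simp [w]; omega) hwu
      · exact hnone w hwb 0 L hw0.symm hvw (by simp [w, hjL.ne']; omega) hwu
    · push Not at hmid
      have hsum : ∀ f : Fin (n + 3) → ℕ,
          ∑ l, f l = f 0 + (f L + ∑ l ∈ (univ.erase 0).erase L, f l) := fun f => by
        rw [← add_sum_erase _ f (mem_univ 0),
          ← add_sum_erase _ f (mem_erase.2 ⟨h0L.ne', mem_univ L⟩)]
      have hmlt : ∑ l ∈ (univ.erase 0).erase L, u l < ∑ l ∈ (univ.erase 0).erase L, v l := by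
        refine sum_lt_sum_of_nonempty ⟨J, by simp [hJ.1.ne', hJ.2.ne]⟩ fun l hl => ?_
        simp only [mem_erase] at hl
        exact lt_of_le_of_ne (hmid l ((Fin.zero_le l).lt_of_ne' hl.2.1)
          ((Fin.le_last l).lt_of_ne hl.1)) (hdiff l).symm
      have := hsum u; have := hsum v
      let w : Fin (n + 3) → ℕ :=
        fun l => if l = 0 then u 0 - (v L - u L) else if l = L then v L else u l
      have hwb : w ∈ box a d := by
        refine mem_box.2 ⟨fun l => ?_, ?_⟩
        · have := hvb l; have := hub l
          simp only [w]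
          split_ifs with c1 c2
          · subst c1; omega
          · subst c2; omega
          · omega
        · have hm : ∑ l ∈ (univ.erase 0).erase L, w l = ∑ l ∈ (univ.erase 0).erase L, u l :=
            sum_congr rfl fun l hl => by
              simp only [mem_erase] at hl
              simp [w, hl.1, hl.2.1]
          have hw0 : w 0 = u 0 - (v L - u L) := by simp [w]
          have hwL : w L = v L := by simp [w, h0L.ne']
          have := hsum w
          omega
      refine hnone w hwb L J (by simp [w, h0L.ne']) ?_ (by simp [w, hJ.1.ne', hJ.2.ne]) ?_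
      · exact le_of_lt (toLex_lt_of_first 0 (fun l hl => absurd hl (by simp))
          (by simp [w]; omega))
      · exact le_of_lt (toLex_lt_of_first 0 (fun l hl => absurd hl (by simp))
          (by simp [w]; omega))
  refine ⟨insert u (A.erase v), insert_subset hu ((erase_subset _ _).trans hA),
    card_swap hv huA, ?_, sum_pos_swap hu hv huA hlt⟩
  have hlost : bump v L ∈ up a d A :=
    mem_up.2 ⟨bump_mem_box (hA hv) (by have := hub L; omega), v, hv, L, rfl⟩
  refine (card_le_card (t := insert (bump u L) ((up a d A).erase (bump v L))) ?_).trans ?_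
  · intro y hy
    obtain ⟨hyb, z, hz, j, rfl⟩ := mem_up.1 hy
    rw [mem_insert, mem_erase]
    have hzne : ∀ {z j}, z ∈ insert u (A.erase v) → bump z j ≠ bump v L := by
      intro z j hz he
      have hz' : toLex v ≤ toLex z := by
        rcases mem_insert.1 hz with rfl | h
        · exact hlt.le
        · exact hvmin z (mem_of_mem_erase h)
      by_cases hj : j = L
      · rw [hj] at he
        rw [add_right_cancel he] at hz
        rcases mem_insert.1 hz with h | h
        · exact hdiff 0 (congrFun h 0)
        · exact (mem_erase.1 h).1 rfl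
      · refine absurd hz' (not_le.2 (toLex_lt_of_first j (fun l hl => ?_) ?_))
        · have := congrFun he l
          simpa [bump_apply, hl.ne, (hl.trans_le (Fin.le_last j)).ne, hL] using this
        · have := congrFun he j
          simp [bump_apply, hj] at this
          omega
    rcases mem_insert.1 hz with rfl | hzA
    · by_cases hj : j = L
      · exact Or.inl (by rw [hj])
      right
      refine ⟨hzne hz, mem_up.2 ⟨hyb, ?_⟩⟩
      have hLpos : 0 < z L := by omega
      obtain ⟨hxb, hxbump⟩ := sub_single_mem_box hyb (p := L) (by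
        simp [bump_apply, Ne.symm hj]; omega)
      refine ⟨_, by_contra fun hnot => ?_, L, hxbump⟩
      refine absurd (humax _ (mem_sdiff.2 ⟨hxb, hnot⟩)) (not_le.2
        (toLex_lt_of_first j (fun l hl => ?_) ?_))
      · simp [bump_apply, hl.ne, (hl.trans_le (Fin.le_last j)).ne, hL]
      · simp [bump_apply, hj]
    · exact Or.inr ⟨hzne hz, mem_up.2 ⟨hyb, z, mem_of_mem_erase hzA, j, rfl⟩⟩
  · refine (card_insert_le _ _).trans ?_
    rw [card_erase_of_mem hlost]
    have := card_pos.2 ⟨_, hlost⟩
    omega

/-- The Clements-Lindström theorem. -/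
theorem clementsLindstrom : ∀ {n : ℕ} {a : Fin n → ℕ}, Monotone a → ∀ {d : ℕ}
    {A C : Finset (Fin n → ℕ)}, A ⊆ box a d → IsSeg a d C → C.card = A.card →
    (up a d C).card ≤ (up a d A).card := by
  intro n
  induction n using Nat.strong_induction_on with
  | _ n ih =>
  intro a ha d A C hA hC hcard
  classical
  match n with
  | 0 => exact le_of_le_of_eq (card_le_card fun y hy => absurd (mem_box.1 (mem_up.1 hy).1).2
      (by simp)) rfl
  | 1 =>
    have hone : ∀ x ∈ box a d, ∀ y ∈ box a d, x = y := fun x hx y hy => funext fun i => by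
      have h1 := (mem_box.1 hx).2
      have h2 := (mem_box.1 hy).2
      rw [Fin.sum_univ_one] at h1 h2
      rw [Subsingleton.elim i 0, h1, h2]
    have hsub : C ⊆ A := fun x hx => by
      obtain ⟨z, hz⟩ := card_pos.1 (hcard ▸ card_pos.2 ⟨x, hx⟩)
      exact hone x (hC.1 hx) z (hA hz) ▸ hz
    exact card_le_card (up_mono hsub)
  | 2 => exact cl_two ha hA hC hcard
  | m + 3 =>
    obtain ⟨B, hB, hmin⟩ := exists_min_image
      ((box a d).powerset.filter fun B => B.card = A.card ∧ (up a d B).card ≤ (up a d A).card)
      (fun B => ∑ x ∈ B, pos a d x) ⟨A, by simp [hA]⟩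
    obtain ⟨hBsub, hBc, hBu⟩ := by simpa using hB
    have hseg : IsSeg a d B := by
      by_contra hns
      obtain ⟨B', hB'1, hB'2, hB'3, hB'4⟩ : ∃ B', B' ⊆ box a d ∧ B'.card = B.card ∧
          (up a d B').card ≤ (up a d B).card ∧
          ∑ x ∈ B', pos a d x < ∑ x ∈ B, pos a d x := by
        by_cases hsl : ∀ i : Fin (m + 3), ∀ t < a i,
            IsSeg (i.removeNth a) (d - t) (slice i a d B t)
        · exact exists_swapped hBsub hns hsl
        · push Not at hsl
          obtain ⟨i, t, ht, h⟩ := hsl
          exact exists_compressed (fun h1 h2 h3 => ih _ (by omega)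
            (ha.comp (Fin.strictMono_succAbove i).monotone) h1 h2 h3) hBsub ht h
      exact absurd (hmin B' (by simp [hB'1, hB'2.trans hBc, hB'3.trans hBu])) (not_le.2 hB'4)
    have heq : C = B := eq_of_subset_of_card_le
      (hC.subset_of_card_le hseg (by omega)) (by omega)
    rw [heq]
    exact hBu

end Vale.Agent.P200.Box
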